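import Crest.Agent.X262.Cnt37.Core
import Crest.Agent.X262.Vb10.Mob

/-! # Row 262, road B: the string equation (helper37) -/

set_option autoImplicit false
set_option linter.unusedSectionVars false

noncomputable section

namespace Crest.Agent.X262.Str37

open Polynomial Matrix
open Crest.Agent.X277.BD (dim trdeg_eq_dim deg deg_pos_iff)
open Crest.Agent.X262.Hb Crest.Agent.X262.Vb Crest.Agent.X262.Vb37 Crest.Agent.X262.Cnt37

variable {J : Type} {io : J → Type} {d : J → ℕ}
  [Fintype J] [DecidableEq J] [∀ j, Fintype (io j)] [∀ j, DecidableEq (io j)]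
variable {I M : Type} {K : Type} [Field K] [Algebra ℂ K]

theorem dim_adjoin_le {ι : Type} [Finite ι] (x : ι → K) :
    Algebra.EssFiniteType ℂ (IntermediateField.adjoin ℂ (Set.range x)) ∧
      dim ℂ (IntermediateField.adjoin ℂ (Set.range x)) ≤ Nat.card ι := by
  refine dim_le_card (fun i => ⟨x i, IntermediateField.subset_adjoin _ _ ⟨i, rfl⟩⟩)
    (IntermediateField.lift_injective _ ?_)
  rw [IntermediateField.lift_adjoin, IntermediateField.lift_top, ← Set.range_comp]
  rfl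

/-- a normalised datum one of whose moduli is `1` descends to a small field -/
theorem small_of [Fintype I] {η : Dat io d I K} {p0 : (j : J) → io j × Fin (d j + 1)} {a b c : I}
    (h : Nm3 η a b c) (h0 : ∀ j, (η.f j (p0 j).1).coeff (p0 j).2 ≠ 0) (z : Ix p0 a b c)
    (hz : gen η p0 a b c z = 1) : ∃ (k : IntermediateField ℂ K) (ζ : Dat io d I k),
      Algebra.EssFiniteType ℂ k ∧ dim ℂ k < mdim io d (Fintype.card I) ∧ (ζ.map k.val).Eqv η := by
  classical
  let G : {w // w ≠ z} → K := fun w => gen η p0 a b c w.1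
  obtain ⟨h1, h2⟩ := dim_adjoin_le G
  have h3 : η.crd ⊆ IntermediateField.adjoin ℂ (Set.range G) := by
    intro t ht
    refine IntermediateField.adjoin_le_iff.2 ?_
      (adjoin_gen h h0 (IntermediateField.subset_adjoin _ _ ht))
    rintro _ ⟨w, rfl⟩
    by_cases hw : w = z
    · rw [hw, hz]; exact one_mem _
    · exact IntermediateField.subset_adjoin _ _ ⟨⟨w, hw⟩, rfl⟩
  obtain ⟨ζ, hx, s, hs, hf⟩ := exists_desc η _ h3
  refine ⟨_, ζ, h1, h2.trans_lt ?_, eqv_of_scl hx.symm hs hf⟩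
  rw [← card_Ix p0 h.ne.1 h.ne.2.1 h.ne.2.2, Nat.card_eq_fintype_card, Nat.card_eq_fintype_card]
  exact Fintype.card_subtype_lt (x := z) (not_not.2 rfl)

theorem coeff_mob_dg (n : ℕ) (s : K) (f : K[X]) {l : ℕ} (hl : l ≤ n) :
    (mob n !![s, 0; 0, 1] f).coeff l = f.coeff l * s ^ l := by
  have : mob n !![s, 0; 0, 1] f = ∑ l ∈ Finset.range (n + 1), monomial l (f.coeff l * s ^ l) := by
    refine Finset.sum_congr rfl fun l _ => ?_
    simp [mul_pow, ← C_mul_X_pow_eq_monomial, mul_assoc]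
  rw [this, finsetSum_coeff, Finset.sum_eq_single l]
  · rw [coeff_monomial_same]
  · exact fun k _ hk => coeff_monomial_of_ne _ hk.symm
  · exact fun h => absurd (Finset.mem_range.2 (Nat.lt_succ_of_le hl)) h

/-- the last point is moved to `1` -/
def mv (η : Dat io d (Option M) K) : Dat io d (Option M) K :=
  ⟨η.f, fun q => q.elim (some 1) fun q => η.x (some q), η.cp⟩

/-- after forgetting a point the universal datum descends to a smaller field -/
theorem small [Fintype M] {ξ : Dat io d (Option M) K} (hu : ξ.Univ)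
    (hd : d ≠ 0 ∨ 3 ≤ Fintype.card M) : ∃ (k : IntermediateField ℂ K) (ζ : Dat io d M k),
      Algebra.EssFiniteType ℂ k ∧ dim ℂ k < dim ℂ K ∧ (ζ.map k.val).Eqv (ξ.res some) := by
  have := univ_essFT hu
  have hK : dim ℂ K = mdim io d (Fintype.card (Option M)) := by
    have h := hu.2.2
    rwa [trdeg_eq_dim, Nat.cast_inj] at h
  suffices h : ∃ η : Dat io d (Option M) K, ξ.Eqv η ∧ ∃ (k : IntermediateField ℂ K)
      (ζ : Dat io d (Option M) k), Algebra.EssFiniteType ℂ k ∧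
      dim ℂ k < mdim io d (Fintype.card (Option M)) ∧ (ζ.map k.val).Eqv (mv η) by
    obtain ⟨η, h1, k, ζ, h2, h3, h4⟩ := h
    exact ⟨k, ζ.res some, h2, hK ▸ h3, eqv_trans (eqv_res h4 some) (eqv_symm (eqv_res h1 some))⟩
  rcases hd with hd | hd
  · obtain ⟨j₀, hj⟩ := Function.ne_iff.1 hd
    have hj' : 1 ≤ d j₀ := Nat.one_le_iff_ne_zero.2 hj
    have h2 : 1 < Fintype.card M := by
      have := univ_card hu
      rw [Fintype.card_option] at this; omega
    obtain ⟨a, b, hab⟩ := Fintype.one_lt_card_iff.1 h2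
    obtain ⟨η, e1, e2, e3⟩ := univ_nm3 hu (a := some a) (b := some b) (c := none) (by simpa)
      (by simp) (by simp)
    choose i₀ hi using η.cp.2.1
    have c0 : ∀ j, (η.f j (i₀ j)).coeff 0 ≠ 0 := fun j => univ_coeff_ne e3 j _ (Nat.zero_le _)
    have c1 := univ_coeff_ne e3 j₀ (i₀ j₀) hj'
    set s := (η.f j₀ (i₀ j₀)).coeff 0 / (η.f j₀ (i₀ j₀)).coeff 1 with hs
    have hs0 : s ≠ 0 := div_ne_zero (c0 _) c1
    have hg : (!![s, 0; 0, 1] : Matrix (Fin 2) (Fin 2) K).det ≠ 0 := by simpa using hs0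
    let η' := act η _ hg (fun _ => 1) fun _ => one_ne_zero
    have hc : ∀ j i l, l ≤ d j → (η'.f j i).coeff l = (η.f j i).coeff l * s ^ l := fun j i l hl => by
      simp only [η', act, C_1, one_mul, coeff_mob_dg _ _ _ hl]
    have xa : η'.x (some a) = none := by
      obtain ⟨u, h⟩ := act_x η _ hg (fun _ => 1) (fun _ => one_ne_zero) (some a)
      have h1 := congrFun h 1
      rw [e2.1] at h1
      rcases hx : η'.x (some a) with _ | t
      · rfl
      · rw [hx] at h1; simp [Vb.hx, mulVec, dotProduct] at h1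
    have xb : η'.x (some b) = some 0 := by
      obtain ⟨u, h⟩ := act_x η _ hg (fun _ => 1) (fun _ => one_ne_zero) (some b)
      have h1 := congrFun h 0
      rw [e2.2.1] at h1
      rcases hx : η'.x (some b) with _ | t <;> rw [hx] at h1 <;>
        simp [Vb.hx, mulVec, dotProduct, hs0] at h1
      rw [h1]
    refine ⟨η', eqv_trans e1 (eqv_act _ _ _ _ _), small_of (p0 := fun j => (i₀ j, 0))
      (a := some a) (b := some b) (c := none) ⟨xa, xb, rfl⟩ (fun j => ?_)
      (.inl ⟨j₀, (i₀ j₀, ⟨1, by omega⟩), by simp⟩) ?_⟩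
    · change (η'.f j (i₀ j)).coeff 0 ≠ 0
      rw [hc _ _ _ (Nat.zero_le _), pow_zero, mul_one]; exact c0 j
    · change (η'.f j₀ (i₀ j₀)).coeff 1 / (η'.f j₀ (i₀ j₀)).coeff 0 = 1
      rw [hc _ _ _ hj', hc _ _ _ (Nat.zero_le _), hs]
      have := c0 j₀
      field_simp
  · obtain ⟨a, b, c, hab, hac, hbc⟩ := Fintype.two_lt_card_iff.mp hd
    obtain ⟨η, e1, e2, -⟩ := univ_nm3 hu (a := some a) (b := some b) (c := some c) (by simpa)
      (by simpa) (by simpa)
    choose i₀ hi using η.cp.2.1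
    exact ⟨η, e1, small_of (η := mv η) (p0 := fun j => (i₀ j, Fin.last _)) (a := some a)
      (b := some b) (c := some c) e2 hi (.inr ⟨none, by simp⟩) rfl⟩

variable {A : Type} [Fintype A] {B : Th} {T : Tgt io A}

/-- without a universal datum the invariant is zero -/
theorem GW_eq_zero [Fintype M] (Φ : MFam B io M) (h : ∀ (K : Type) [Field K] [Algebra ℂ K]
    (ξ : Dat io d M K), ¬ξ.Univ) : GW B T d Φ = 0 := by
  have key : ∀ v, IsGW B T d Φ v := fun v =>
    ⟨0, fun _ K₀ _ _ _ _ _ _ _ _ _ _ _ ⟨ξ₀, h0, _⟩ _ => (h K₀ ξ₀ h0).elim⟩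
  rw [GW, dif_neg fun hu => zero_ne_one (hu.unique (key 0) (key 1))]

/-- **the invariant vanishes if the marks which carry the class descend to a smaller field** -/
theorem GW_of_small {M' : Type} [Fintype M] [Fintype M'] {N : ℕ} (g : M → M') {Φ : MFam B io M}
    (hI : Vb10.Inv d B T N Φ)
    (hI' : Vb10.Inv d B T N (M := M') fun E _ _ y => Φ E fun q => y (g q))
    {ξ : Dat io d M' K} (hu : ξ.Univ) {k : Type} [Field k] [Algebra ℂ k]
    [Algebra.EssFiniteType ℂ k] (θ : k →ₐ[ℂ] K) (ζ : Dat io d M k) (hk : dim ℂ k < dim ℂ K)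
    (h : (ζ.map θ).Eqv (ξ.res g)) :
    GW B T d (M := M') (fun E _ _ y => Φ E fun q => y (g q)) = 0 := by
  have := univ_essFT hu
  have hM := Vb10.mob io d
  obtain ⟨L, _, _, _, τ, n, η, hτ, hη, hN⟩ := Vb10.exNrm ζ N
  obtain ⟨F, _, _, a, b, ha, hab⟩ := Vb10.exists_amal θ τ hτ
  have := Vb10.eft_of_deg a ha
  have h3 : ((η.map b).res Sum.inl).Eqv ((ξ.map a).res g) := by
    rw [← Vb10.map_res, hη, Vb10.map_map, ← hab, ← Vb10.map_map, ← Vb10.map_res]
    exact eqv_map h a
  obtain ⟨ω, e1, e2⟩ := Vb10.eqv_ext h3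
  have hn := eqv_nrmUp e2 (nrmUp_map hN b)
  have h4 := Vb10.vir_eq_GW Vb10.exNrm hM hI' (Vb10.over_inl hu e1 hM) (nrmUp_of_res _ hn)
  have h5 := hI.res ω (Sum.map g id) Sum.inl hn
  have hb : deg b = 0 := by
    by_contra hb
    have := (deg_pos_iff b).1 (Nat.pos_of_ne_zero hb)
    have := (deg_pos_iff a).1 ha
    have := (deg_pos_iff τ).1 hτ
    omega
  rw [Vb10.vir_eqv hM hI e2, Vb10.vir_map hM hI, hb, Nat.cast_zero, zero_mul] at h5
  exact (mul_eq_zero.1 (h4.symm.trans h5)).resolve_left (Nat.cast_ne_zero.2 ha.ne')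

theorem mcls_comp {M' : Type} (g : M → M') {Φ : MFam B io M} (h : MCls B T Φ) :
    MCls B T (M := M') fun E _ _ y => Φ E fun q => y (g q) :=
  ⟨fun E _ _ _ y c h1 h2 h3 => h.scl E (fun q => y (g q)) (fun q => c (g q)) (fun _ => h1 _)
    (fun _ => h2 _) fun _ => h3 _,
   fun K E _ _ _ _ _ _ p y h1 h2 => h.nat K E p (fun q => y (g q)) (fun _ => h1 _) fun _ => h2 _⟩

/-- **string equation** -/
theorem str {N : ℕ} (hI : ∀ {M : Type} [Fintype M] (Φ : MFam B io M), MCls B T Φ →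
    Vb10.Inv d B T N Φ) [Fintype M] (Φ : MFam B io M) (h : MCls B T Φ)
    (hd : d ≠ 0 ∨ 3 ≤ Fintype.card M) :
    GW B T d (M := Option M) (fun E _ _ y => Φ E fun q => y (some q)) = 0 := by
  by_cases hU : ∃ (K : Type) (_ : Field K) (_ : Algebra ℂ K) (ξ : Dat io d (Option M) K), ξ.Univ
  · obtain ⟨K, _, _, ξ, hu⟩ := hU
    obtain ⟨k, ζ, _, h2, h3⟩ := small hu hd
    exact GW_of_small some (hI Φ h) (hI _ (mcls_comp some h)) hu k.val ζ h2 h3
  · exact GW_eq_zero _ fun K _ _ ξ hu => hU ⟨K, _, _, ξ, hu⟩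

/-! ### a free point -/

/-- the datum with one more point -/
def add (ξ : Dat io d M K) (t : Option K) : Dat io d (Option M) K :=
  ⟨ξ.f, fun q => q.elim t ξ.x, ξ.cp⟩

/-- a universal datum with a free point is universal -/
theorem univ_add [Fintype M] {k : Type} [Field k] [Algebra ℂ k] {ζ : Dat io d M k} (hu : ζ.Univ)
    (θ : k →ₐ[ℂ] K) (z : K) (hz : IntermediateField.adjoin ℂ (insert z (Set.range θ)) = ⊤)
    (hK : Algebra.trdeg ℂ K = Algebra.trdeg ℂ k + 1) : (add (ζ.map θ) (some z)).Univ := by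
  have h3 := univ_card hu
  obtain ⟨⟨a, b, c, h1, h2, h4⟩, h5, h6⟩ := hu
  refine ⟨⟨some a, some b, some c, by simp [add, Dat.map, h1], by simp [add, Dat.map, h2],
    by simp [add, Dat.map, h4]⟩, ?_, ?_⟩
  · rw [eq_top_iff, ← hz, IntermediateField.adjoin_le_iff]
    rintro _ (rfl | ⟨t, rfl⟩)
    · exact IntermediateField.subset_adjoin _ _ (Or.inr ⟨none, rfl⟩)
    · have : θ t ∈ IntermediateField.adjoin ℂ (ζ.map θ).crd := by
        rw [crd_map, ← IntermediateField.adjoin_map, h5]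
        exact ⟨t, trivial, rfl⟩
      refine IntermediateField.adjoin.mono _ _ _ ?_ this
      rintro s (hs | ⟨q, hq⟩)
      · exact Or.inl hs
      · exact Or.inr ⟨some q, hq⟩
  · rw [hK, h6, Fintype.card_option, ← Nat.cast_succ, Nat.cast_inj, mdim, mdim]
    omega

end Crest.Agent.X262.Str37
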