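import Crest.Agent.X262.Str37.Main
import Crest.Agent.X262.Div34.Core
import Crest.Agent.X262.Tr89.Pb
import Crest.Agent.X262.Vb.Ax0

/-! # Row 262, road B: the divisor equation and `AxSStmt` (helper37) -/

set_option autoImplicit false
set_option linter.unusedSectionVars false

noncomputable section

namespace Crest.Agent.X262.Str37

open Polynomial
open Crest.Agent.X277 Crest.Agent.X277.BD Crest.Agent.X277.BD.Cyc
open Crest.Agent.X262.Geo (od od_eq_zero essFT_Rf)
open Crest.Agent.X262.Hb Crest.Agent.X262.Vb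
open Crest.Agent.X262.Div (rn rn_tower rn_comp rn_pb vir_rel)

section Line

variable {K L : Type} [Field K] [Field L] [Algebra K L]

theorem v_aeval_le (V : RZ K L) {z : L} {γ : V.1.ValueGroup} (h1 : 1 ≤ γ) (hz : V.v z ≤ γ)
    {f : K[X]} {n : ℕ} (hf : f.natDegree ≤ n) : V.v (aeval z f) ≤ γ ^ n := by
  rw [aeval_eq_sum_range]
  refine V.v.map_sum_le fun l hl => (V.v_smul_le _ _).trans ?_
  rw [map_pow]
  exact (pow_le_pow_left₀ zero_le hz l).trans
    (pow_le_pow_right₀ h1 ((Nat.lt_succ_iff.1 (Finset.mem_range.1 hl)).trans hf))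

/-- coprime forms of degree `n` define `O(n)` -/
theorem mxf_aeval {ι : Type} [Fintype ι] (z : L) {f : ι → K[X]} {n : ℕ}
    (h1 : ∀ i, (f i).natDegree ≤ n) (h2 : ∃ i, (f i).coeff n ≠ 0)
    (h3 : Ideal.span (Set.range f) = ⊤) :
    n • mxf K ![1, z] = mxf K fun i => aeval z (f i) := by
  refine eq_mxf (fun i V => ?_) fun V => ?_
  · rw [val_nsmul]
    exact v_aeval_le V (by simpa using mem_Sec_mxf (k := K) ![1, z] 0 V)
      (mem_Sec_mxf (k := K) ![1, z] 1 V) (h1 i)
  rw [val_nsmul]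
  rcases le_or_gt (V.v z) 1 with hz | hz
  · rw [val_mxf (i := 0) (by simp) (Fin.forall_fin_two.2 ⟨le_rfl, by simpa using hz⟩)]
    have hle : ∀ g : K[X], V.v (aeval z g) ≤ 1 := fun g => by
      simpa using v_aeval_le V le_rfl hz (le_refl g.natDegree)
    by_contra hc
    obtain ⟨g, hg⟩ := Ideal.mem_span_range_iff_exists_fun.1 (h3 ▸ Submodule.mem_top : (1 : K[X]) ∈ _)
    have h4 : V.v (∑ i, aeval z (g i * f i)) < 1 := V.v.map_sum_lt one_ne_zero fun i _ => by
      rw [map_mul, map_mul]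
      exact mul_lt_one_of_nonneg_of_lt_one_right (hle _) zero_le
        (lt_of_le_of_ne (hle _) fun h => hc ⟨i, by simpa using h⟩)
    rw [← map_sum, hg, map_one, map_one] at h4
    exact h4.false
  · have hz0 : z ≠ 0 := fun h => by simp [h] at hz
    rw [val_mxf (i := 1) (by simpa using hz0) (Fin.forall_fin_two.2 ⟨by simpa using hz.le, le_rfl⟩)]
    obtain ⟨i, hi⟩ := h2
    refine ⟨i, ?_⟩
    have e : V.v ((f i).coeff n • z ^ n) = V.v z ^ n := by
      rw [Algebra.smul_def, map_mul, V.v_alg hi, one_mul, map_pow]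
    rw [aeval_eq_sum_range' (Nat.lt_succ_of_le (h1 i)), Finset.sum_range_succ,
      V.v.map_add_eq_of_lt_right, e]
    · rfl
    rw [e]
    refine V.v.map_sum_lt (pow_ne_zero _ (RZ.ne_zero_iff.2 hz0)) fun l hl =>
      (V.v_smul_le _ _).trans_lt ?_
    rw [map_pow]
    exact pow_lt_pow_right₀ hz (Finset.mem_range.1 hl)

end Line

variable {J : Type} {io : J → Type} {d : J → ℕ}
  [Fintype J] [DecidableEq J] [∀ j, Fintype (io j)] [∀ j, DecidableEq (io j)]
variable {I M : Type} {K : Type} [Field K] [Algebra ℂ K]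

/-- the field of rational functions -/
theorem exists_free (K : Type) [Field K] [Algebra ℂ K] : ∃ (L : Type) (_ : Field L)
    (_ : Algebra ℂ L) (_ : Algebra K L) (_ : IsScalarTower ℂ K L) (z : L),
    IntermediateField.adjoin K {z} = ⊤ ∧ Algebra.trdeg K L = 1 := by
  refine ⟨RatFunc K, inferInstance, inferInstance, inferInstance, inferInstance, RatFunc.X,
    RatFunc.adjoin_X, ?_⟩
  have h1 := trdeg_add_eq K K[X] (A := RatFunc K)
  have := IsLocalization.isAlgebraic (RatFunc K) (nonZeroDivisors K[X])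
  rw [Polynomial.trdeg_of_isDomain, trdeg_eq_zero, add_zero] at h1
  exact h1.symm

/-- the degree of `O(1)` on the line is the degree of the map -/
theorem rn_ln {L : Type} [Field L] [Algebra ℂ L] [Algebra K L] [IsScalarTower ℂ K L]
    [Algebra.EssFiniteType ℂ L] {z : L} (hz : IntermediateField.adjoin K {z} = ⊤)
    (hL : Algebra.trdeg K L = 1) (ξ : Dat io d I K) (j : J) :
    rn (IsScalarTower.toAlgHom ℂ K L)
      [ln ((ξ.map (IsScalarTower.toAlgHom ℂ K L)).pt (some z)) j] = d j := by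
  have : CharZero K := charZero_of_injective_algebraMap (algebraMap ℂ K).injective
  have : Algebra.EssFiniteType K L := Algebra.EssFiniteType.of_comp ℂ K L
  have e : (ξ.map (IsScalarTower.toAlgHom ℂ K L)).pt (some z) j = fun i => aeval z (ξ.f j i) :=
    _root_.funext fun i => eval_map_algebraMap _ _
  have h1 : bnum [mxf K ![1, z]] = 1 := Tr89.bnum_proj (n := 1) (x := ![1, z]) (by simp)
    (by rw [← hz]; congr 1; ext; simp [eq_comm]) (by rw [trdeg_eq_dim] at hL; exact_mod_cast hL)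
  rw [rn_tower, List.map_singleton, ln, up_mxf, e,
    ← mxf_aeval z (ξ.cp.1 j) (ξ.cp.2.1 j) (ξ.cp.2.2 j), bnum_nsmul, h1, mul_one]

variable {A : Type} [Fintype A] {B : Th} {T : Tgt io A} {c : ℕ}

theorem hc_red (hB : B.Ax) {E : Type} [Field E] [Algebra ℂ E] [Fintype I] {z : Cfg io I K}
    (hz : z.NZ) (p : LP K E) (q : I) (j : J) :
    hc B j E ((z.red p.toPl).y q) = B.c1 (p.rs (ln (z.y q) j)) := by
  have h := Cfg.pr_nrm hz p.V q
  have e : B.c1 (ln ((z.gau (z.nrm p.V)).y q) j) = B.c1 (ln (z.y q) j) := by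
    rw [show (z.gau (z.nrm p.V)).y q = Node22.scl (z.nrm p.V q) (z.y q) from rfl,
      ln_scl (hz q) (Cfg.nrm_ne _ _ q), map_add, hB.c1_pr, add_zero]
  rw [← hB.pb_c1, ← e, hB.pb_c1_res p (h.val_ln j), ← ln_red h]
  rfl

/-- **divisor equation** -/
theorem dvz (hB : B.Ax) (hG : Good T c d) [Fintype M] (Φ : MFam B io M) (j : J)
    (hΦ : MCls B T Φ) (h3 : 3 ≤ Fintype.card M) :
    GW B T d (M := Option M) (fun E _ _ y => hc B j E (y none) * Φ E fun q => y (some q)) =
      d j * GW B T d Φ := by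
  by_cases hU : HasUniv io d M
  swap
  · rw [GW_of_not hU, mul_zero]
    refine GW_eq_zero _ fun K _ _ ξ _ => hU ?_
    obtain ⟨K, _, _, _, ζ, h⟩ := Vb37.exists_univ_of_dat ξ h3
    exact ⟨K, _, _, ζ, h⟩
  obtain ⟨N₁, h1⟩ := hG.vir_eq hB
  obtain ⟨N₂, h2⟩ := hG.res hB
  obtain ⟨K, K₀, _, _, _, _, _, _, θ, n, ξ₀, ξ, hθ, hu, hr, ho, hN⟩ := hU.exists (max N₁ N₂)
  obtain ⟨L, _, _, _, _, z, hz, hL⟩ := exists_free K₀
  have : Algebra.EssFiniteType K₀ L := by
    rw [← IntermediateField.fg_top_iff, ← hz]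
    exact IntermediateField.fg_adjoin_of_finite (Set.finite_singleton _)
  have : Algebra.EssFiniteType ℂ L := Algebra.EssFiniteType.comp ℂ K₀ L
  set ι := IsScalarTower.toAlgHom ℂ K₀ L
  have ht : Algebra.trdeg ℂ L = Algebra.trdeg ℂ K₀ + 1 := by rw [← hL, trdeg_add_eq]
  have hu1 := univ_add hu ι z (by
    rw [eq_top_iff]
    intro t _
    have : t ∈ IntermediateField.adjoin K₀ {z} := hz ▸ trivial
    refine IntermediateField.adjoin_induction K₀ (p := fun t _ => t ∈ _) ?_ ?_ ?_ ?_ ?_ this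
    · rintro _ rfl; exact IntermediateField.subset_adjoin _ _ (Or.inl rfl)
    · exact fun x => IntermediateField.subset_adjoin _ _ (Or.inr ⟨x, rfl⟩)
    · exact fun _ _ _ _ => add_mem
    · exact fun _ _ => inv_mem
    · exact fun _ _ _ _ => mul_mem) ht
  obtain ⟨F, _, _, a, b, ha, hab⟩ := Vb10.exists_amal ι θ hθ
  have := Vb10.eft_of_deg a ha
  have e0 : (ξ₀.map ι).map a = (ξ.map b).res Sum.inl := by
    rw [← Vb10.map_res, hr, Vb10.map_map, Vb10.map_map, hab]
  let ω := add (ξ.map b) (some (a z))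
  have e1 : (add (ξ₀.map ι) (some z)).map a = ω.res (Option.map Sum.inl) :=
    Vb37.dat_ext (congrArg Dat.f e0 :) (_root_.funext fun q => by
      cases q with
      | none => rfl
      | some q => exact congrFun (congrArg Dat.x e0) q)
  have hN' : (ω.res some).NrmUp (max N₁ N₂) := Vb37.nrmUp_map hN b
  have hΨ : MCls B T (M := Option M) fun E _ _ y => hc B j E (y none) * Φ E fun q => y (some q) :=
    ((cls_hc hB j).at none).mul (hΦ.comp some)
  have h4 := h1 _ hΨ (ξ := ω) (m := Option.map Sum.inl) (θ := a)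
    ⟨_, hu1, e1 ▸ Vb37.eqv_refl _⟩ (Vb37.nrmUp_mono (Vb37.nrmUp_of_res _ hN') (le_max_left _ _))
  have h5 := h1 Φ hΦ ho (Vb37.nrmUp_mono hN (le_max_left _ _))
  obtain ⟨h6, h7, -⟩ := h2 ω some (Vb37.nrmUp_mono hN' (le_max_right _ _))
  have e2 : (ω.res some).cfg = ξ.cfg.map b := Vb37.cfg_map b ξ
  have d1 := (deg_pos_iff a).1 ha
  have d2 := (deg_pos_iff θ).1 hθ
  have d3 : dim ℂ L = dim ℂ K₀ + 1 := by
    rw [trdeg_eq_dim, trdeg_eq_dim] at ht; exact_mod_cast ht
  have h8 := vir_rel hB hΦ b ξ.cfg_nz Sum.inl (l := [ln (ω.cfg.y none) j])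
    (by rw [List.length_singleton]; omega) (z' := ω.cfg) (m' := Option.map Sum.inl)
    (Ψ := fun E _ _ y => hc B j E (y none) * Φ E fun q => y (some q)) (e2 ▸ h6.symm)
    fun W hW h0 => by
      have := essFT_Rf hW
      have hO := on_at ω.cfg_nz fun h => h0 ((od_eq_zero hW).2 h)
      have e3 : cpz B T ((ω.res some).cfg.red (plV W)) = cpz B T (ω.cfg.red (plV W)) :=
        h7 (LP.at W) hO
      rw [← e2, trm, trm, h6, exc_congr e3, List.map_singleton, Tr89.pc_cons, Tr89.pc_nil, mul_one,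
        mul_left_comm]
      congr 1
      exact hc_red hB ω.cfg_nz (LP.at W) none j
  have h9 : ln (ω.cfg.y none) j = pb a (ln ((ξ₀.map ι).pt (some z)) j) := by
    rw [← ln_map]
    congr 1
    funext j i
    rw [show mapP a _ j i = a _ from rfl, ← Vb37.dmap_pt, e0]
    rfl
  have h10 := rn_pb ι a [ln ((ξ₀.map ι).pt (some z)) j]
  rw [rn_ln hz hL, hab, rn_comp θ b d2, List.map_singleton, ← h9] at h10
  have h11 : (deg θ : ℂ) * rn b [ln (ω.cfg.y none) j] = deg a * d j := by exact_mod_cast h10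
  refine mul_left_cancel₀ (Nat.cast_ne_zero.2 ha.ne' : (deg a : ℂ) ≠ 0) ?_
  rw [← h4, h8, h5, ← mul_assoc, ← mul_assoc, ← h11, mul_comm (deg θ : ℂ)]

theorem axS (hB : B.Ax) (hG : Good T c d) : AxS B T d where
  str Φ h hd := by
    obtain ⟨N, hI⟩ := hG.inv hB
    exact str (fun Φ h => hI Φ h) Φ h hd
  dvz Φ j h h3 := dvz hB hG Φ j h h3

theorem axSStmt : AxSStmt := fun _ hB _ _ _ _ _ _ _ _ _ _ _ hG => axS hB hG

end Crest.Agent.X262.Str37
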